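import Vale.Agent.P322.Bdl.B2

namespace Vale.Agent.Results.P322.CourtadeKumar

open Vale.Agent.P322

/-- Let `X` be uniform on `{-1,1}^n` and `Y` the output of `n` independent binary symmetric
channels with crossover probability `ε ∈ [0,1/2]`.  Then for every Boolean function `f` on
`{-1,1}^n` the mutual information (in bits) between `f(X)` and `Y` is at most `1 - h2 ε`. -/
theorem result : ∀ (n : ℕ) (f : (Fin n → ℤˣ) → ℤˣ) (ε : ℝ), 0 ≤ ε → ε ≤ 1 / 2 →
    mutualInfo (outLaw n ε f) ≤ 1 - h2 ε :=
  fun n f ε h0 h1 => courtade_kumar n f ε h0 h1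

end Vale.Agent.Results.P322.CourtadeKumar
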